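import Vale.Agent.P144Z.R4b.Sch
import Vale.Agent.P144Z.R1.Main
import Vale.Agent.P144Z.R3.Main

/-!
Block R4b: contraction after the extraction of the local terms.
-/

namespace Vale.Agent.P144Z

open Finset Matrix Filter Topology

namespace R4b

variable {g : Geo}

theorem beta_sub {S : Type} [Fintype S] [DecidableEq S] (F G : Gr S) (c : ℝ) (a b : S → ℝ) :
    beta (F - c • G) a b = beta F a b - c * beta G a b := by
  simp only [beta, map_sub, map_smul, smul_eq_mul]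

theorem aug_of_noF {F : g.E} (h : g.noF F = 0) : aug (Ev.val F) = 0 := by
  rw [← aug_map (RN.prB g), RN.map_prB h, map_zero]

theorem del_prB (k : g.K × Fin 2) (F : Gr g.S) :
    del (Pi.single (Sum.inr k) 1) (ExteriorAlgebra.map (RN.prB g) F) =
      ExteriorAlgebra.map (RN.prB g) (del (Pi.single (Sum.inr k) 1) F) :=
  del_map _ _ _ (A1.mem_loc_univ F) fun s _ => by
    rcases s with s | s
    · rw [← RN.ex_single, RN.prB_ex, zero_dotProduct, Pi.single_eq_of_ne Sum.inl_ne_inr]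
    · rw [RN.prB_src, single_one_dotProduct]

theorem aug_db {F : g.E} (h : g.noF F = 0) (k : g.K) : aug (g.db k (Ev.val F)) = 0 := by
  rw [← aug_map (RN.prB g)]
  simp only [Geo.db, LinearMap.comp_apply]
  rw [← del_prB, ← del_prB, RN.map_prB h, map_zero, map_zero, map_zero]

theorem val_db (k : g.K) (F : g.E) :
    Ev.val (toEv (g.db k (Ev.val F))) = g.db k (Ev.val F) := by
  refine val_toEv (A1.mem_even_iff.2 ?_)
  simp only [Geo.db, LinearMap.comp_apply]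
  rw [A1.inv_del, A1.inv_del, A1.mem_even_iff.1 (Ev.val_mem F), map_neg, neg_neg]

theorem noB_edge (x : g.P) (i : Fin 2) : g.noB (g.edge x i) = g.edge x i := by
  apply Ev.val_injective
  rw [Geo.noB, val_evMap, Geo.edge, map_smul, map_smul, val_pp, map_mul, A5.map_psi, A5.map_psi,
    ← RN.ex_single, ← RN.ex_single, RN.prF_ex, RN.prF_ex]

theorem aug_edge (x : g.P) (i : Fin 2) : aug (Ev.val (g.edge x i)) = 0 := by
  rw [Geo.edge, map_smul, map_smul, val_pp, map_mul, A5.aug_psi, zero_mul, smul_zero]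

theorem flat_mono {M : ℕ} {A : Gauge M} {x : Tor M} {r r' : ℕ} (h : Flat A x r') (hr : r ≤ r') :
    Flat A x r := fun f hf => h f (hf.trans hr)

theorem star_subset {M : ℕ} {U : Finset (Tor M)} {x : Tor M} (hx : x ∈ U) : star x ⊆ plus U :=
  subset_biUnion_of_mem star hx

theorem near_plus {M : ℕ} [NeZero M] {U : Finset (Tor M)} {x : Tor M} (hx : x ∈ U) {ℓ : ℕ}
    (hℓ : 1 ≤ ℓ) (hU : stein U ≤ ℓ) : ∀ z ∈ plus U, tdist z x ≤ 2 * ℓ := fun z hz => by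
  obtain ⟨y, hy, h⟩ := mem_biUnion.1 hz
  have h1 := G.tdist_star h
  have h2 := tdist_le_stein hy hx
  have h3 := tdist_triangle z y x
  rw [tdist_comm] at h1
  omega

theorem scale_le {C : ℝ} (hC : 16 ≤ C) {ℓ ℓ' : ℕ} (h : C * ℓ ≤ ℓ') : 16 * ℓ ≤ ℓ' := by
  have : (16 : ℝ) * ℓ ≤ ℓ' := (mul_le_mul_of_nonneg_right hC (Nat.cast_nonneg ℓ)).trans h
  exact_mod_cast this

end R4b

namespace Geo

open R4b

/-- Contraction after the extraction of the two couplings. -/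
theorem pn_loc : ∃ C : ℝ, 1 ≤ C ∧ ∀ g : Geo, IsSign g.A → ∀ (ℓ ℓ' : ℕ) (h h' β β' : ℝ), 8 ≤ ℓ →
    C * ℓ ≤ ℓ' → 16 * ℓ' ≤ g.M → 0 < h → 0 < h' → h' ≤ 4 * h → 0 < β → 0 < β' →
    ∀ U : Finset g.P, g.Xtr ℓ ℓ' U → ∀ x ∈ U, ∀ F ∈ g.sub U, g.noB F = F → g.noF F = 0 →
      g.pn ℓ' h' β' (plus U) (F - g.Ext x F) ≤ C * ((ℓ : ℝ) / ℓ') ^ 3 * g.pn ℓ h β U F := by
  obtain ⟨C₁, hC₁, H₁⟩ := schw
  obtain ⟨C₂, hC₂, H₂⟩ := pn_extract
  have hC : C₁ ≤ C₁ * (1 + C₂) := by nlinarith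
  refine ⟨C₁ * (1 + C₂), by linarith,
    fun g hA ℓ ℓ' h h' β β' hℓ hl hM hh hh' hhh hβ hβ' U hU x hx F hF hB h0 => ?_⟩
  have hl₁ : C₁ * ℓ ≤ ℓ' := (mul_le_mul_of_nonneg_right hC (Nat.cast_nonneg ℓ)).trans hl
  have hl₂ := scale_le hC₁ hl₁
  have hℓ1 : 1 ≤ ℓ := by omega
  have hfl := hU.2 x hx
  have hE : g.Ext x F ∈ g.sub (plus U) := RN.sub_mono (star_subset hx) (Ext_mem x F)
  have hF' : F ∈ g.sub (plus U) := RN.sub_mono (G.subset_plus U) hF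
  obtain ⟨c₁, c₂⟩ := coef_Ext hA (by omega) (flat_mono hfl (by omega : 2 ≤ ℓ')) F
  have e : Ev.val (F - g.Ext x F) = Ev.val F - (1 : ℝ) • Ev.val (g.Ext x F) := by
    rw [map_sub, one_smul]
  have key := (H₁ g hA ℓ ℓ' h h' β β' hℓ1 hl₁ (by omega) hh hh' hhh hβ hβ' (plus U) x
    (G.subset_plus U hx) (near_plus hx hℓ1 hU.1) hfl _ (Subalgebra.sub_mem _ hF' hE)
    (by rw [map_sub, hB, noB_Ext]) (aug_of_noF (by rw [map_sub, h0, noF_Ext, sub_zero]))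
    (by rw [e, cM, beta_sub, one_mul]; exact sub_eq_zero.2 c₁.symm)).2 fun a b i => by
      rw [e, cK, beta_sub, one_mul]; exact sub_eq_zero.2 (c₂ a b i).symm
  have b₁ := (H₂ g hA ℓ h β hℓ (by omega) hh hβ U x hx hU.1 (flat_mono hfl (by omega)) F hF).2.2.2
    ℓ h β le_rfl (by omega) (flat_mono hfl (by omega)) hh hβ
  rw [div_self hh.ne', one_pow, mul_one] at b₁
  have b₂ := RN.pn_mono hℓ1 hh hβ le_rfl le_rfl (star_subset hx) (Ext_mem x F)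
  have b₃ := RN.pn_mono hℓ1 hh hβ le_rfl le_rfl (G.subset_plus U) hF
  have b₄ := RN.pn_sub (X := plus U) hℓ1 hh hβ F (g.Ext x F)
  refine key.trans ?_
  rw [mul_right_comm C₁ (1 + C₂), mul_assoc _ (1 + C₂)]
  exact mul_le_mul_of_nonneg_left (by linarith) (by positivity)

/-- Contraction after the extraction of the source term. -/
theorem pn_src : ∃ C : ℝ, 1 ≤ C ∧ ∀ g : Geo, IsSign g.A → ∀ (ℓ ℓ' : ℕ) (h h' β β' : ℝ), 8 ≤ ℓ →
    C * ℓ ≤ ℓ' → 16 * ℓ' ≤ g.M → 0 < h → 0 < h' → h' ≤ 4 * h → 0 < β → 0 < β' →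
    ∀ U : Finset g.P, g.Xtr ℓ ℓ' U → ∀ k, (g.src k).y ∈ U → (∀ k', (g.src k').y ∈ U → k' = k) →
    ∀ F ∈ g.sub U, g.noB F = 0 → g.noF F = 0 →
      g.pn ℓ' h' β' (plus U) (F - g.zt k F • g.bE k)
        ≤ C * (β' / β) * ((ℓ : ℝ) / ℓ') ^ 2 * g.pn ℓ h β U F := by
  obtain ⟨C₁, hC₁, H₁⟩ := schw
  obtain ⟨C₂, hC₂, H₂⟩ := pn_extract
  obtain ⟨C₃, hC₃, H₃⟩ := pn_local
  have hC0 : 0 ≤ C₂ * C₃ := by positivity
  have hC : C₁ ≤ C₁ * (1 + C₂ * C₃) := by nlinarith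
  refine ⟨C₁ * (1 + C₂ * C₃), by linarith,
    fun g hA ℓ ℓ' h h' β β' hℓ hl hM hh hh' hhh hβ hβ' U hU k hx hk F hF hB h0 => ?_⟩
  have hl₁ : C₁ * ℓ ≤ ℓ' := (mul_le_mul_of_nonneg_right hC (Nat.cast_nonneg ℓ)).trans hl
  have hl₂ := scale_le hC₁ hl₁
  have hℓ1 : 1 ≤ ℓ := by omega
  have hℓ1' : 1 ≤ ℓ' := by omega
  have l0 : (0 : ℝ) < ℓ := by exact_mod_cast hℓ1
  have hfl := hU.2 _ hx
  obtain ⟨e₁, m₁, n₁⟩ := eq_of_one_src hF k hk
  have d₁ := pn_db_le hA hℓ1 hh hβ hF k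
  have z₁ : g.zt k F = -2 * g.cM (g.src k).y (Ev.val (toEv (g.db k (Ev.val F)))) := by
    rw [val_db]; rfl
  have a₁ : aug (Ev.val (toEv (g.db k (Ev.val F)))) = 0 := by rw [val_db, aug_db h0]
  rw [hB, zero_add] at e₁
  generalize toEv (g.db k (Ev.val F)) = F₁ at e₁ m₁ n₁ d₁ z₁ a₁
  have hs : g.edge (g.src k).y (g.src k).dir ∈ g.sub (star (g.src k).y) :=
    edge_mem _ _ (G.mem_star_self _) (by
      generalize (g.src k).dir = i
      fin_cases i <;> simp [star])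
  have hE := RN.sub_mono (star_subset hx) hs
  have hF' := RN.sub_mono (G.subset_plus U) m₁
  have c₁ := (coef_O hA (by omega) (flat_mono hfl (by omega : 2 ≤ ℓ'))).2.2.2.2 (g.src k).dir
  have key := (H₁ g hA ℓ ℓ' h h' β β' hℓ1 hl₁ (by omega) hh hh' hhh hβ hβ' (plus U) _
    (G.subset_plus U hx) (near_plus hx hℓ1 hU.1) hfl _
    (Subalgebra.sub_mem _ hF' (Subalgebra.smul_mem _ hE (g.zt k F)))
    (by rw [map_sub, map_smul, n₁, noB_edge])
    (by rw [map_sub, map_smul, map_sub, map_smul, a₁, aug_edge, smul_zero, sub_zero])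
    (by
      rw [map_sub, map_smul, cM, beta_sub]
      change g.cM _ _ - _ * g.cM _ _ = 0
      rw [c₁, z₁]; ring)).1
  have b₁ := (H₂ g hA ℓ h β hℓ (by omega) hh hβ U _ hx hU.1 (flat_mono hfl (by omega)) F
    hF).2.2.1 k rfl
  have b₀ := (H₃ g hA ℓ h β hℓ (by omega) hh hβ _ (flat_mono hfl (by omega))).2.2.1 (g.src k).dir
  have b₂ := (RN.pn_mono hℓ1 hh hβ le_rfl le_rfl (star_subset hx) hs).trans b₀
  have b₃ := RN.pn_mono hℓ1 hh hβ le_rfl le_rfl (G.subset_plus U) m₁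
  have b₄ := RN.pn_sub (X := plus U) hℓ1 hh hβ F₁ (g.zt k F • g.edge (g.src k).y (g.src k).dir)
  rw [RN.pn_smul hℓ1 hh hβ] at b₄
  have b₅ := mul_le_mul_of_nonneg_left b₂ (abs_nonneg (g.zt k F))
  have b₆ : β * (|g.zt k F| * (C₃ * h ^ 2 / ℓ)) ≤ C₂ * C₃ * g.pn ℓ h β U F := by
    have := mul_le_mul_of_nonneg_left b₁ (by positivity : 0 ≤ C₃ / ℓ)
    calc _ = C₃ / ℓ * (β * h ^ 2 * |g.zt k F|) := by ring
      _ ≤ _ := this
      _ = _ := by field_simp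
  have b₇ : g.pn ℓ h β (plus U) (F₁ - g.zt k F • g.edge (g.src k).y (g.src k).dir)
      ≤ (1 + C₂ * C₃) * g.pn ℓ h β U F / β := by
    rw [le_div_iff₀ hβ]
    have := mul_le_mul_of_nonneg_left (b₄.trans (add_le_add b₃ b₅)) hβ.le
    linarith
  have e₂ : F - g.zt k F • g.bE k =
      g.bv k * (F₁ - g.zt k F • g.edge (g.src k).y (g.src k).dir) := by
    rw [mul_sub, ← e₁, mul_smul_comm, bE]
  rw [e₂]
  refine (RN.pn_mul hℓ1' hh' hβ' _ _).trans ((mul_le_mul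
    (pn_bv k hA hℓ1' hh' hβ' (G.subset_plus U hx))
    (key.trans (mul_le_mul_of_nonneg_left b₇ (by positivity))) (RN.pn_nonneg _) hβ'.le).trans_eq ?_)
  ring

end Geo

end Vale.Agent.P144Z
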