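import Vale.Agent.P144Z.RN.Shr

/-!
The Schwarz lemma for elements without sources whose relevant and marginal parts vanish.
-/

namespace Vale.Agent.P144Z.R4b

open Finset Matrix RN

set_option linter.unusedSectionVars false

section fields

variable {M : ℕ} [NeZero M]

theorem supp_fld (x : Tor M) (a : Fin 2) (r : ℕ) : SuppIn (fld x a) x r := fun s hs => by
  refine if_neg fun e => ?_
  rw [e, tdist_self] at hs
  omega

theorem supp_dfld (A : Gauge M) (x : Tor M) (b i : Fin 2) {r : ℕ} (hr : 1 ≤ r) :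
    SuppIn (dfld A x b i) x r :=
  SuppIn.smul (SuppIn.sub
    (SuppIn.smul (SuppIn.mono (supp_fld _ b 0) (by have := tdist_uv x i; omega)) _)
    (SuppIn.smul (SuppIn.mono (supp_fld _ b 0) (by have := E3.tdist_sub_uv x i; omega)) _)) _

theorem dot_swap {ι : Type} [Fintype ι] (f d : ι → Tor M × Fin 4 → ℝ) (δ u : Tor M × Fin 4 → ℝ) :
    (∑ i, (δ ⬝ᵥ f i) • d i) ⬝ᵥ u = δ ⬝ᵥ ∑ i, (d i ⬝ᵥ u) • f i := by
  rw [sum_dotProduct, dotProduct_sum]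
  refine sum_congr rfl fun i _ => ?_
  rw [smul_dotProduct, dotProduct_smul, smul_eq_mul, smul_eq_mul, mul_comm]

theorem hsq_sub_le (A : Gauge M) (ρ : ℝ) (B : Finset (Tor M)) (u v : Tor M × Fin 4 → ℝ) :
    hsq A ρ B (u - v) ≤ 2 * hsq A ρ B u + 2 * hsq A ρ B v := by
  simpa using E4.hsq_sub_smul A ρ B u v 1

/-- The constant part of a test function. -/
noncomputable def T0 (A : Gauge M) (x : Tor M) (u : Tor M × Fin 4 → ℝ) : Tor M × Fin 4 → ℝ :=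
  ∑ a, (fld x a ⬝ᵥ u) • tf0 A x a

/-- The linear part of a test function. -/
noncomputable def T1 (A : Gauge M) (x : Tor M) (u : Tor M × Fin 4 → ℝ) : Tor M × Fin 4 → ℝ :=
  ∑ b : Fin 2 × Fin 2, (dfld A x b.1 b.2 ⬝ᵥ u) • tf1 A x b.1 b.2

/-- The sizes of the terms of the Taylor expansion. -/
theorem taylor : ∃ K : ℝ, 1 ≤ K ∧ ∀ (M : ℕ) [NeZero M] (A : Gauge M), IsSign A →
    ∀ (x z : Tor M) (ℓ ρ : ℕ), 1 ≤ ℓ → 16 * ℓ ≤ ρ → 2 * ρ + 11 ≤ M → Flat A x ρ →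
    tdist z x ≤ 2 * ℓ → ∀ u : Tor M × Fin 4 → ℝ,
    hsq A ℓ (ball z (2 * ℓ)) (T0 A x u) ≤ K ^ 2 * ((ℓ : ℝ) / ρ) ^ 2 * hsq A ρ (ball x ρ) u ∧
    hsq A ℓ (ball z (2 * ℓ)) (T1 A x u) ≤ K ^ 2 * ((ℓ : ℝ) / ρ) ^ 4 * hsq A ρ (ball x ρ) u ∧
    hsq A ℓ (ball z (2 * ℓ)) (u - T0 A x u) ≤ K ^ 2 * ((ℓ : ℝ) / ρ) ^ 4 * hsq A ρ (ball x ρ) u ∧
    hsq A ℓ (ball z (2 * ℓ)) (u - T0 A x u - T1 A x u)
      ≤ K ^ 2 * ((ℓ : ℝ) / ρ) ^ 6 * hsq A ρ (ball x ρ) u := by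
  obtain ⟨C₁, hC₁, h₁⟩ := bulk_est
  obtain ⟨C₂, hC₂, h₂⟩ := taylor_est
  refine ⟨8 * C₁ + 4 * C₂, by linarith, fun M _ A hA x z ℓ ρ hℓ hρ hM hF hz u => ?_⟩
  obtain ⟨a₁, a₂⟩ := h₂ M A hA x z ℓ ρ hℓ hρ hM hF hz u
  have a₀ := (hsq_mono A (Nat.cast_nonneg ℓ) (ρ' := ((2 * ℓ : ℕ) : ℝ))
    (by exact_mod_cast (by omega : ℓ ≤ 2 * ℓ))
    (E4.ball_sub (by omega : tdist z x + 2 * ℓ ≤ 2 * (2 * ℓ))) u).trans
    (h₁ M A hA x (2 * ℓ) ρ (by omega) (by omega) hM hF u)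
  have e₁ : (∑ b, ∑ i, (dfld A x b i ⬝ᵥ u) • tf1 A x b i) = T1 A x u := by
    rw [T1, Fintype.sum_prod_type]
  rw [e₁] at a₂
  change hsq A ℓ _ (u - T0 A x u) ≤ _ at a₁
  change hsq A ℓ _ (u - T0 A x u - T1 A x u) ≤ _ at a₂
  have b₀ := hsq_sub_le A ℓ (ball z (2 * ℓ)) u (u - T0 A x u)
  have b₁ := hsq_sub_le A ℓ (ball z (2 * ℓ)) (u - T0 A x u) (u - T0 A x u - T1 A x u)
  rw [sub_sub_cancel] at b₀ b₁
  have hρ0 : (0 : ℝ) < ρ := by exact_mod_cast (by omega : 0 < ρ)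
  have e₂ : ((2 * ℓ : ℕ) : ℝ) / ρ = 2 * ((ℓ : ℝ) / ρ) := by push_cast; ring
  rw [e₂] at a₀
  have ht0 : 0 ≤ (ℓ : ℝ) / ρ := by positivity
  have ht1 : (ℓ : ℝ) / ρ ≤ 1 := (div_le_one hρ0).2 (by exact_mod_cast (by omega : ℓ ≤ ρ))
  have hH := hsq_nonneg A ρ (ball x ρ) u
  generalize (ℓ : ℝ) / ρ = t at *
  generalize hsq A ρ (ball x ρ) u = H at *
  have p₂ : 0 ≤ t ^ 2 * H := by positivity
  have p₄ : 0 ≤ t ^ 4 * H := by positivity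
  have p₆ : 0 ≤ t ^ 6 * H := by positivity
  have q₄ : t ^ 4 * H ≤ t ^ 2 * H :=
    mul_le_mul_of_nonneg_right (pow_le_pow_of_le_one ht0 ht1 (by norm_num)) hH
  have q₆ : t ^ 6 * H ≤ t ^ 4 * H :=
    mul_le_mul_of_nonneg_right (pow_le_pow_of_le_one ht0 ht1 (by norm_num)) hH
  have hK : 8 * C₁ + 4 * C₂ ≤ (8 * C₁ + 4 * C₂) ^ 2 := by nlinarith
  have r₂ := mul_le_mul_of_nonneg_right hK p₂
  have r₄ := mul_le_mul_of_nonneg_right hK p₄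
  have r₆ := mul_le_mul_of_nonneg_right hK p₆
  have s₄ := mul_le_mul_of_nonneg_left q₄ (by linarith : 0 ≤ C₂)
  have s₆ := mul_le_mul_of_nonneg_left q₆ (by linarith : 0 ≤ C₂)
  have u₂ := mul_nonneg (by linarith : 0 ≤ C₂) p₂
  have u₄ := mul_nonneg (by linarith : 0 ≤ C₂) p₄
  have u₆ := mul_nonneg (by linarith : 0 ≤ C₂) p₆
  have v₄ := mul_nonneg (by linarith : 0 ≤ C₁) p₄
  have v₆ := mul_nonneg (by linarith : 0 ≤ C₁) p₆
  refine ⟨?_, ?_, ?_, ?_⟩ <;> nlinarith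

end fields

variable {g : Geo} {ℓ ℓ' : ℕ} {h h' β β' : ℝ} {V : Finset g.P}

/-- The field without the sources. -/
noncomputable def repF (r : Rep g.S) : Rep g.S where
  n := r.n
  Ψ := r.Ψ ∘ₗ prF g
  sq _ := r.sq _

theorem repF_ev (r : Rep g.S) (F : Gr g.S) :
    (repF r).ev F = r.ev (ExteriorAlgebra.map (prF g) F) := by
  have : (repF r).ev = r.ev.comp (ExteriorAlgebra.map (prF g)) := by
    refine ExteriorAlgebra.hom_ext (LinearMap.ext fun δ => ?_)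
    change (repF r).ev (psi δ) = r.ev (ExteriorAlgebra.map (prF g) (psi δ))
    rw [A5.map_psi, A5.ev_psi, A5.ev_psi]; rfl
  rw [this]; rfl

theorem repF_ex (r : Rep g.S) (δ : Tor g.M × Fin 4 → ℝ) : (repF r).Ψ (g.ex δ) = r.Ψ (g.ex δ) := by
  change r.Ψ (prF g (g.ex δ)) = _
  rw [prF_ex]

theorem repF_src (r : Rep g.S) (k : g.K × Fin 2) :
    opn ((repF r).Ψ (Pi.single (Sum.inr k) 1)) = 0 := by
  change opn (r.Ψ (prF g _)) = _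
  rw [prF_src, opn_Psi_zero]

theorem rank_ex {ι : Type} [Fintype ι] (f d : ι → Tor g.M × Fin 4 → ℝ) (δ : Tor g.M × Fin 4 → ℝ) :
    (∑ i, (pair (g.ex (f i))).smulRight (g.ex (d i))) (g.ex δ)
      = g.ex (∑ i, (δ ⬝ᵥ f i) • d i) := by
  rw [ex_sum, LinearMap.sum_apply]
  refine sum_congr rfl fun i _ => ?_
  rw [ex_smul, ← ex_dot]; rfl

theorem rank_src {ι : Type} [Fintype ι] (f d : ι → Tor g.M × Fin 4 → ℝ) (k : g.K × Fin 2) :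
    (∑ i, (pair (g.ex (f i))).smulRight (g.ex (d i))) (Pi.single (Sum.inr k) 1) = 0 := by
  rw [LinearMap.sum_apply]
  refine sum_eq_zero fun i _ => ?_
  change ((Pi.single (Sum.inr k) 1 : g.S → ℝ) ⬝ᵥ g.ex (f i)) • g.ex (d i) = 0
  rw [src_dot_ex, zero_smul]

/-- One piece of the field. -/
theorem piece {r : Rep g.S} (hr : r.In (g.cons ℓ' h' β' V)) {x : g.P} (hx : x ∈ V) (hℓ : 1 ≤ ℓ)
    (hℓ' : 1 ≤ ℓ') (hh : 0 < h) (hh' : h' ≤ 4 * h) {z : g.P} {δ δ' : Tor g.M × Fin 4 → ℝ} {c : ℝ}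
    (hc : 0 ≤ c) (hd : Dom g.A ℓ z δ c) (hs : SuppIn δ' x ℓ') {K : ℝ} (hK : 1 ≤ K) {w : ℕ}
    (hw : 1 ≤ w) (H : ∀ u, ∃ u', δ' ⬝ᵥ u = δ ⬝ᵥ u' ∧ hsq g.A ℓ (ball z (2 * ℓ)) u'
      ≤ K ^ 2 * ((ℓ : ℝ) / ℓ') ^ (w + 1) * hsq g.A ℓ' (ball x ℓ') u) :
    opn ((repF r).Ψ (g.ex δ')) / (12 * K * √((ℓ : ℝ) / ℓ')) ^ w ≤ h * c / 3 := by
  have h0 : (0 : ℝ) < ℓ := by exact_mod_cast hℓ
  have h0' : (0 : ℝ) < ℓ' := by exact_mod_cast hℓ'
  have ht : (0 : ℝ) < ℓ / ℓ' := div_pos h0 h0'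
  have hs0 : 0 < √((ℓ : ℝ) / ℓ') := Real.sqrt_pos.2 ht
  have hd' : Dom g.A ℓ' x δ' (c * (K * √((ℓ : ℝ) / ℓ') ^ w)) := Dom.transfer hℓ hd fun u => by
    obtain ⟨u', e, h1⟩ := H u
    refine ⟨u', e, (mul_le_mul_of_nonneg_right h1 h0'.le).trans ?_⟩
    have e1 : (K * √((ℓ : ℝ) / ℓ') ^ w) ^ 2 * ℓ = K ^ 2 * ((ℓ : ℝ) / ℓ') ^ (w + 1) * ℓ' := by
      rw [mul_pow, ← pow_mul, mul_comm w 2, pow_mul, Real.sq_sqrt ht.le, pow_succ _ w]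
      field_simp
    rw [e1, mul_right_comm]
    exact mul_le_mul_of_nonneg_left (hsq_mono g.A h0'.le le_rfl (E3.ball_mono x (by omega)) u)
      (by positivity)
  have h1 := In.fld hr hx hs (by positivity) hd'
  rw [repF_ex, div_le_iff₀ (by positivity), mul_pow]
  refine h1.trans ?_
  have h2 : 12 * K ≤ (12 * K) ^ w := le_self_pow₀ (by linarith) (by omega)
  have h3 : 0 ≤ c * (K * √((ℓ : ℝ) / ℓ') ^ w) := by positivity
  have h4 : 0 ≤ h * c / 3 * √((ℓ : ℝ) / ℓ') ^ w := by positivity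
  have h5 := mul_le_mul_of_nonneg_right hh' h3
  have h6 := mul_le_mul_of_nonneg_left h2 h4
  nlinarith

/-- The two contractions. -/
theorem schw : ∃ C : ℝ, 16 ≤ C ∧ ∀ g : Geo, IsSign g.A → ∀ (ℓ ℓ' : ℕ) (h h' β β' : ℝ), 1 ≤ ℓ →
    C * ℓ ≤ ℓ' → 2 * ℓ' + 11 ≤ g.M → 0 < h → 0 < h' → h' ≤ 4 * h → 0 < β → 0 < β' →
    ∀ (V : Finset g.P) (x : g.P), x ∈ V → (∀ z ∈ V, tdist z x ≤ 2 * ℓ) → Flat g.A x ℓ' →
    ∀ G ∈ g.sub V, g.noB G = G → aug (Ev.val G) = 0 → g.cM x (Ev.val G) = 0 →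
      g.pn ℓ' h' β' V G ≤ C * ((ℓ : ℝ) / ℓ') ^ 2 * g.pn ℓ h β V G ∧
      ((∀ a b i, g.cK x (Ev.val G) a b i = 0) →
        g.pn ℓ' h' β' V G ≤ C * ((ℓ : ℝ) / ℓ') ^ 3 * g.pn ℓ h β V G) := by
  obtain ⟨K, hK, hT⟩ := taylor
  have hK1 : (1 : ℝ) ≤ 24 * K := by linarith
  have hK2 : (24 * K) ^ 2 ≤ (24 * K) ^ 6 := pow_le_pow_right₀ hK1 (by norm_num)
  have hK3 : (16 : ℝ) ≤ (24 * K) ^ 6 := by nlinarith
  refine ⟨(24 * K) ^ 6, hK3,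
    fun g hA ℓ ℓ' h h' β β' hℓ hC hM hh hh' hhh hβ hβ' V x hx hV hF G hG hB h0 h1 => ?_⟩
  have l0 : (0 : ℝ) < ℓ := by exact_mod_cast hℓ
  have hl : 16 * ℓ ≤ ℓ' := by
    have : (16 : ℝ) * ℓ ≤ ℓ' := (mul_le_mul_of_nonneg_right hK3 l0.le).trans hC
    exact_mod_cast this
  have hℓ' : 1 ≤ ℓ' := by omega
  have l0' : (0 : ℝ) < ℓ' := by exact_mod_cast hℓ'
  have ht : (0 : ℝ) < ℓ / ℓ' := div_pos l0 l0'
  have hs0 : 0 < √((ℓ : ℝ) / ℓ') := Real.sqrt_pos.2 ht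
  have hρ : 0 < 12 * K * √((ℓ : ℝ) / ℓ') := by positivity
  have hρ2 : (12 * K * √((ℓ : ℝ) / ℓ')) ^ 2 = (12 * K) ^ 2 * ((ℓ : ℝ) / ℓ') := by
    rw [mul_pow, Real.sq_sqrt ht.le]
  have hρ1 : 12 * K * √((ℓ : ℝ) / ℓ') ≤ 1 / 2 := by
    refine abs_le_of_sq_le_sq' ?_ (by norm_num) |>.2
    rw [hρ2, ← mul_div_assoc, div_le_iff₀ l0']
    have := (mul_le_mul_of_nonneg_right hK2 l0.le).trans hC
    nlinarith
  have hN := pn_nonneg (ℓ := ℓ) (h := h) (β := β) (X := V) G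
  have hev : ∀ r : Rep g.S, r.ev (Ev.val G) = (repF r).ev (Ev.val G) := fun r => by
    rw [repF_ev, ← val_evMap]
    exact congrArg (fun F => r.ev (Ev.val F)) hB.symm
  have s0 : ∀ δ : Tor g.M × Fin 4 → ℝ, SuppIn (∑ a, (δ ⬝ᵥ tf0 g.A x a) • fld x a) x ℓ' :=
    fun δ => SuppIn.sum _ fun a => SuppIn.smul (supp_fld x a ℓ') _
  have s1 : ∀ δ : Tor g.M × Fin 4 → ℝ, SuppIn
      (∑ b : Fin 2 × Fin 2, (δ ⬝ᵥ tf1 g.A x b.1 b.2) • dfld g.A x b.1 b.2) x ℓ' :=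
    fun δ => SuppIn.sum _ fun b => SuppIn.smul (supp_dfld g.A x b.1 b.2 hℓ') _
  have hsq0 : 0 ≤ √β := Real.sqrt_nonneg β
  refine ⟨pn_le hℓ' hh' hβ' hG fun r hr => ?_, fun h2 => pn_le hℓ' hh' hβ' hG fun r hr => ?_⟩
  · rw [hev]
    refine (opn_wsub (adm hℓ hh hβ V) _ _ ?_ (sub_loc hG)
      (wsub_low' (fun a => g.ex (tf0 g.A x a)) (fun a => g.ex (fld x a)) (Ev.val_mem G) h0 h1)
      (repF r) hρ hρ1 fun p hp => ?_).trans ?_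
    · rw [Fin.sum_univ_two]
      exact add_sub_cancel _ _
    · rw [Fin.sum_univ_two]
      simp only [Matrix.cons_val_zero, Matrix.cons_val_one, LinearMap.sub_apply,
        LinearMap.id_apply]
      rcases cons_cases hp with ⟨z, hz, δ, c, hs, hc, hd, rfl⟩ | ⟨k, i, -, rfl⟩
      · simp only [rank_ex, ← ex_sub]
        have hz' := hV z hz
        have a0 := piece hr hx hℓ hℓ' hh hhh hc hd (s0 δ) hK (w := 1) le_rfl fun u =>
          ⟨_, dot_swap _ _ δ u, (hT g.M g.A hA x z ℓ ℓ' hℓ hl hM hF hz' u).1⟩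
        have a1 := piece hr hx hℓ hℓ' hh hhh hc hd
          (SuppIn.sub (SuppIn.mono hs (by omega)) (s0 δ)) hK (w := 3) (by norm_num) fun u =>
          ⟨u - T0 g.A x u, by rw [sub_dotProduct, dotProduct_sub, dot_swap]; rfl,
            (hT g.M g.A hA x z ℓ ℓ' hℓ hl hM hF hz' u).2.2.1⟩
        have := mul_nonneg hh.le hc
        linarith
      · simp only [rank_src, sub_zero, repF_src, opn_Psi_zero, zero_div, add_zero]
        exact hsq0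
    · change _ * g.pn ℓ h β V G ≤ _
      refine mul_le_mul_of_nonneg_right ?_ hN
      rw [show (4 : ℕ) = 2 * 2 from rfl, pow_mul, hρ2, mul_pow, ← mul_assoc]
      refine mul_le_mul_of_nonneg_right ?_ (by positivity)
      have : (24 * K) ^ 4 ≤ (24 * K) ^ 6 := pow_le_pow_right₀ hK1 (by norm_num)
      have h4 : 0 ≤ K ^ 4 := by positivity
      nlinarith
  · rw [hev]
    refine (opn_wsub (adm hℓ hh hβ V) _ _ ?_ (sub_loc hG)
      (wsub_low (fun a => g.ex (tf0 g.A x a)) (fun a => g.ex (fld x a))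
        (fun b => g.ex (tf1 g.A x b.1 b.2)) (fun b => g.ex (dfld g.A x b.1 b.2))
        (Ev.val_mem G) h0 h1 fun a b => h2 a b.1 b.2)
      (repF r) hρ hρ1 fun p hp => ?_).trans ?_
    · rw [Fin.sum_univ_three]
      simp only [Matrix.cons_val_zero, Matrix.cons_val_one, Matrix.cons_val]
      abel
    · rw [Fin.sum_univ_three]
      simp only [Matrix.cons_val_zero, Matrix.cons_val_one, Matrix.cons_val, LinearMap.sub_apply,
        LinearMap.id_apply]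
      rcases cons_cases hp with ⟨z, hz, δ, c, hs, hc, hd, rfl⟩ | ⟨k, i, -, rfl⟩
      · simp only [rank_ex, ← ex_sub]
        have hz' := hV z hz
        have a0 := piece hr hx hℓ hℓ' hh hhh hc hd (s0 δ) hK (w := 1) le_rfl fun u =>
          ⟨_, dot_swap _ _ δ u, (hT g.M g.A hA x z ℓ ℓ' hℓ hl hM hF hz' u).1⟩
        have a1 := piece hr hx hℓ hℓ' hh hhh hc hd (s1 δ) hK (w := 3) (by norm_num) fun u =>
          ⟨_, dot_swap _ _ δ u, (hT g.M g.A hA x z ℓ ℓ' hℓ hl hM hF hz' u).2.1⟩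
        have a2 := piece hr hx hℓ hℓ' hh hhh hc hd
          (SuppIn.sub (SuppIn.sub (SuppIn.mono hs (by omega)) (s0 δ)) (s1 δ)) hK (w := 5)
          (by norm_num) fun u => ⟨u - T0 g.A x u - T1 g.A x u, by
            rw [sub_dotProduct, sub_dotProduct, dotProduct_sub, dotProduct_sub, dot_swap,
              dot_swap]; rfl, (hT g.M g.A hA x z ℓ ℓ' hℓ hl hM hF hz' u).2.2.2⟩
        linarith
      · simp only [rank_src, sub_zero, repF_src, opn_Psi_zero, zero_div, add_zero]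
        exact hsq0
    · change _ * g.pn ℓ h β V G ≤ _
      refine mul_le_mul_of_nonneg_right ?_ hN
      rw [show (6 : ℕ) = 2 * 3 from rfl, pow_mul, hρ2, mul_pow, ← mul_assoc]
      refine mul_le_mul_of_nonneg_right ?_ (by positivity)
      have h6 : 0 ≤ K ^ 6 := by positivity
      have e6 : (24 * K) ^ (2 * 3) = 24 ^ 6 * K ^ 6 := by ring
      have e7 : 2 * ((12 * K) ^ 2) ^ 3 = 2 * 12 ^ 6 * K ^ 6 := by ring
      rw [e6, e7]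
      exact mul_le_mul_of_nonneg_right (by norm_num) h6

end Vale.Agent.P144Z.R4b
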